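import Vale.Agent.P017.H262.Dens
import Vale.Agent.P017.H185.Fam

/-!
# `X₀(15)(K)` is finite for a positive proportion of the imaginary quadratic fields `K`

`X015` is the modular curve `X₀(15)`, with its Weierstrass equation
`y² + xy + y = x³ + x² - 10x - 10` over `ℚ` (the curve `15a1` of Cremona's tables).
-/

universe u

open NumberField Vale.Agent.P017.H185 in
/-- There are `c > 0` and `X₀` such that for all `X ≥ X₀` there are at least `c X` squarefree
`d ≤ X` with `d ≡ 23 mod 60` such that the class group of `K = ℚ(√-d)` has no element of order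
four and `X₀(15)(K)` is finite. -/
theorem Vale.Agent.Results.P017.PositiveProportion.result :
    ∃ c : ℝ, 0 < c ∧ ∃ X₀ : ℕ, ∀ X : ℕ, X₀ ≤ X →
      c * X ≤ ({d : ℕ | d ≤ X ∧ Squarefree d ∧ d % 60 = 23 ∧
        ∀ (K : Type u) [Field K] [NumberField K] [Algebra.IsQuadraticExtension ℚ K] (θ : K),
          θ ^ 2 = -(d : K) → (∀ c : ClassGroup (𝓞 K), orderOf c ≠ 4) ∧
            Finite (X015.baseChange K).toAffine.Point}.ncard : ℝ) := by
  classical
  obtain ⟨c, hc, X₀, h⟩ := Vale.Agent.P017.H262.dens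
  refine ⟨c, hc, X₀, fun X hX => (h X hX).trans ?_⟩
  have hfin : {d : ℕ | d ≤ X ∧ Squarefree d ∧ d % 60 = 23 ∧
        ∀ (K : Type u) [Field K] [NumberField K] [Algebra.IsQuadraticExtension ℚ K] (θ : K),
          θ ^ 2 = -(d : K) → (∀ c : ClassGroup (𝓞 K), orderOf c ≠ 4) ∧
            Finite (X015.baseChange K).toAffine.Point}.Finite :=
    (Set.finite_Iic X).subset fun d hd => hd.1
  rw [← Set.ncard_coe_finset]
  refine Nat.cast_le.2 (Set.ncard_le_ncard ?_ hfin)
  intro d hd
  rw [Finset.mem_coe, Vale.Agent.P017.H262.TT, Finset.mem_filter, Finset.mem_Icc] at hd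
  obtain ⟨⟨hd1, hdX⟩, hsq, hd60, hR⟩ := hd
  refine ⟨hdX, hsq, hd60, ?_⟩
  intro K _ _ _ θ hθ
  obtain ⟨q⟩ := exists_QF_of_sqrt hsq hθ
  have hcl := q.no_order_four (by omega) hR
  refine ⟨hcl, ?_⟩
  apply q.finite_of_cond hcl
  · intro _ h
    have h1 : ((d : ℕ) : ZMod 3) = ((1 : ℕ) : ZMod 3) := by rw [h]; simp
    have h2 := (ZMod.natCast_eq_natCast_iff _ _ _).mp h1
    have h3 : d % 3 = 1 % 3 := h2
    omega
  · intro _ h
    have h1 : ((d : ℕ) : ZMod 5) = ((3 : ℕ) : ZMod 5) := by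
      rw [ZMod.natCast_eq_natCast_iff]
      show d % 5 = 3 % 5
      omega
    rw [h1] at h
    revert h
    decide
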