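import Vale.Agent.P017.H735.D.Inst
import Vale.Agent.P017.H735.D.Ram
import Vale.Agent.P017.H735.D.Trans

/-!
# `X₀(15)(K)` is finite for a positive proportion of `K`, in every class modulo `60`

`X015` is the modular curve `X₀(15)`, with its Weierstrass equation
`y² + xy + y = x³ + x² - 10x - 10` over `ℚ` (the curve `15a1` of Cremona's tables).
For `K = ℚ(√-d)` the prime `3` is inert in `K` if and only if `d ≡ 1 mod 3`, and `5` splits in `K`
if and only if `d ≡ ±1 mod 5`. The classes `d ≡ 3 mod 4` in which these two conditions are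
equivalent are `3, 15, 19, 23, 27, 31, 35, 47` modulo `60`.
-/

universe u

open Vale.Agent.P017.H185 in
/-- Let `r < 60`, `r ≡ 3 mod 4`, and suppose that `3` is inert if and only if `5` splits in
`ℚ(√-d)` for `d ≡ r mod 60`. There are `c > 0` and `X₀` such that for all `X ≥ X₀` there
are at least `c X` squarefree `d ≤ X` with `d ≡ r mod 60` such that `X₀(15)(ℚ(√-d))` is finite. -/
theorem Vale.Agent.Results.P017.PositiveProportionClasses.result :
    ∀ r : ℕ, r < 60 → r % 4 = 3 → (r % 3 = 1 ↔ (r % 5 = 1 ∨ r % 5 = 4)) →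
      ∃ c : ℝ, 0 < c ∧ ∃ X₀ : ℕ, ∀ X : ℕ, X₀ ≤ X →
      c * X ≤ ({d : ℕ | d ≤ X ∧ Squarefree d ∧ d % 60 = r ∧
        ∀ (K : Type u) [Field K] [NumberField K] [Algebra.IsQuadraticExtension ℚ K] (θ : K),
          θ ^ 2 = -(d : K) → Finite (X015.baseChange K).toAffine.Point}.ncard : ℝ) := by
  have hcB : ∀ r : ℕ, r % 4 = 3 → r % 3 = 1 → (r % 5 = 1 ∨ r % 5 = 4) → r < 60 →
      Nat.Coprime r 30 →
      ∃ c : ℝ, 0 < c ∧ ∃ X₀ : ℕ, ∀ X : ℕ, X₀ ≤ X →
      c * X ≤ ({d : ℕ | d ≤ X ∧ Squarefree d ∧ d % 60 = r ∧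
        ∀ (K : Type u) [Field K] [NumberField K] [Algebra.IsQuadraticExtension ℚ K] (θ : K),
          θ ^ 2 = -(d : K) → Finite (X015.baseChange K).toAffine.Point}.ncard : ℝ) := by
    intro r h4 h3 h5 hlt hco
    refine Vale.Agent.P017.H735D.transfer 1 (Vale.Agent.P017.H735D.dataB r hlt hco h4 h3 h5)
      one_pos _ fun n hn h60 hC => ?_
    rw [one_mul]
    refine ⟨hn, h60, fun K _ _ _ θ hθ => ?_⟩
    exact Vale.Agent.P017.H735.finite_of_crit hn (by omega) (by omega) hC hθ
  have fin : ∀ d : ℕ, Squarefree d → d % 4 = 3 → Redei d → d % 3 ≠ 1 →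
      (d % 5 = 0 ∨ d % 5 = 2 ∨ d % 5 = 3) →
      ∀ (K : Type u) [Field K] [NumberField K] [Algebra.IsQuadraticExtension ℚ K] (θ : K),
        θ ^ 2 = -(d : K) → Finite (X015.baseChange K).toAffine.Point := by
    intro d hsq h4 hR h3 h5 K _ _ _ θ hθ
    obtain ⟨q⟩ := exists_QF_of_sqrt hsq hθ
    have hcl := q.no_order_four h4 hR
    apply q.finite_of_cond hcl
    · intro _ h
      have h1 : ((d : ℕ) : ZMod 3) = ((1 : ℕ) : ZMod 3) := by rw [h]; simp
      have h2 := (ZMod.natCast_eq_natCast_iff _ _ _).mp h1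
      have h6 : d % 3 = 1 % 3 := h2
      omega
    · intro h50 h
      have h51 : d % 5 = 2 ∨ d % 5 = 3 := by omega
      rcases h51 with h51 | h51
      · have h1 : ((d : ℕ) : ZMod 5) = ((2 : ℕ) : ZMod 5) := by
          rw [ZMod.natCast_eq_natCast_iff]
          exact h51
        rw [h1] at h
        revert h
        decide
      · have h1 : ((d : ℕ) : ZMod 5) = ((3 : ℕ) : ZMod 5) := by
          rw [ZMod.natCast_eq_natCast_iff]
          exact h51
        rw [h1] at h
        revert h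
        decide
  have hcF : ∀ (f m r : ℕ), f ∣ 15 → m < 60 → Nat.Coprime m 30 → (f * m) % 4 = 3 → 2 ≤ m →
      m % 2 = 1 → (∀ n, n % 60 = m → Vale.Agent.P017.H735D.Ex f n) → (f * m) % 60 = r →
      r % 3 ≠ 1 → (r % 5 = 0 ∨ r % 5 = 2 ∨ r % 5 = 3) →
      ∃ c : ℝ, 0 < c ∧ ∃ X₀ : ℕ, ∀ X : ℕ, X₀ ≤ X →
      c * X ≤ ({d : ℕ | d ≤ X ∧ Squarefree d ∧ d % 60 = r ∧
        ∀ (K : Type u) [Field K] [NumberField K] [Algebra.IsQuadraticExtension ℚ K] (θ : K),
          θ ^ 2 = -(d : K) → Finite (X015.baseChange K).toAffine.Point}.ncard : ℝ) := by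
    intro f m r hf hm hco h4 h2 hodd hex hr h3 h5
    refine Vale.Agent.P017.H735D.transfer f
      (Vale.Agent.P017.H735D.dataF f m hf hm hco h4 h2 hodd hex)
      (Nat.pos_of_dvd_of_pos hf (by norm_num)) _ fun n hn h60 hC => ?_
    have e60 : (f * n) % 60 = r := by rw [Nat.mul_mod, h60, ← hr, Nat.mul_mod f m]; simp
    have hcn : Nat.Coprime n 30 := by
      have h6 : n % 30 = m % 30 := by omega
      rw [Nat.Coprime, Nat.gcd_comm, Nat.gcd_rec] at hco ⊢
      rw [h6]; exact hco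
    have hfn : Nat.Coprime f n := (Nat.Coprime.coprime_dvd_right (hf.trans (by norm_num)) hcn).symm
    have h15 : Squarefree 15 := by
      rw [show (15 : ℕ) = 3 * 5 by norm_num, Nat.squarefree_mul (by norm_num)]
      exact ⟨Nat.prime_three.squarefree, Nat.prime_five.squarefree⟩
    have hsq : Squarefree (f * n) := (Nat.squarefree_mul hfn).2 ⟨h15.squarefree_of_dvd hf, hn⟩
    exact ⟨hsq, e60, fin (f * n) hsq (by omega) hC (by omega) (by omega)⟩
  intro r hlt h4 h35
  have hr : r = 3 ∨ r = 15 ∨ r = 19 ∨ r = 23 ∨ r = 27 ∨ r = 31 ∨ r = 35 ∨ r = 47 := by omega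
  have hA : ∀ r : ℕ, r % 4 = 3 → r % 3 ≠ 1 → (r % 5 = 2 ∨ r % 5 = 3) → r < 60 →
      Nat.Coprime r 30 →
      ∃ c : ℝ, 0 < c ∧ ∃ X₀ : ℕ, ∀ X : ℕ, X₀ ≤ X →
      c * X ≤ ({d : ℕ | d ≤ X ∧ Squarefree d ∧ d % 60 = r ∧
        ∀ (K : Type u) [Field K] [NumberField K] [Algebra.IsQuadraticExtension ℚ K] (θ : K),
          θ ^ 2 = -(d : K) → Finite (X015.baseChange K).toAffine.Point}.ncard : ℝ) := by
    intro r h4 h3 h5 hlt hco
    refine Vale.Agent.P017.H735D.transfer 1 (Vale.Agent.P017.H735D.dataA r hlt hco h4)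
      one_pos _ fun n hn h60 hC => ?_
    rw [one_mul]
    exact ⟨hn, h60, fin n hn (by omega) hC (by omega) (by omega)⟩
  rcases hr with rfl | rfl | rfl | rfl | rfl | rfl | rfl | rfl
  · exact hcF 3 41 3 (by norm_num) (by norm_num) (by norm_num) (by norm_num) (by norm_num)
      (by norm_num) (fun n h => Vale.Agent.P017.H735D.ex3 (Or.inl h)) (by norm_num) (by norm_num)
      (by norm_num)
  · exact hcF 15 17 15 (by norm_num) (by norm_num) (by norm_num) (by norm_num) (by norm_num)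
      (by norm_num) (fun n h => Vale.Agent.P017.H735D.ex15 h) (by norm_num) (by norm_num)
      (by norm_num)
  · exact hcB 19 (by norm_num) (by norm_num) (by norm_num) (by norm_num) (by norm_num)
  · exact hA 23 (by norm_num) (by norm_num) (by norm_num) (by norm_num) (by norm_num)
  · exact hcF 3 29 27 (by norm_num) (by norm_num) (by norm_num) (by norm_num) (by norm_num)
      (by norm_num) (fun n h => Vale.Agent.P017.H735D.ex3 (Or.inr h)) (by norm_num) (by norm_num)
      (by norm_num)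
  · exact hcB 31 (by norm_num) (by norm_num) (by norm_num) (by norm_num) (by norm_num)
  · exact hcF 5 7 35 (by norm_num) (by norm_num) (by norm_num) (by norm_num) (by norm_num)
      (by norm_num) (fun n h => Vale.Agent.P017.H735D.ex5 h) (by norm_num) (by norm_num)
      (by norm_num)
  · exact hA 47 (by norm_num) (by norm_num) (by norm_num) (by norm_num) (by norm_num)
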