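import Vale.Agent.P017.H735.Fam2

/-!
# `X₀(15)(K)` for imaginary quadratic fields in which `3` is inert and `5` splits

`X015` is the modular curve `X₀(15)`, with its Weierstrass equation
`y² + xy + y = x³ + x² - 10x - 10` over `ℚ` (the curve `15a1` of Cremona's tables).
The conditions `d ≡ 1 mod 3`, `d ≡ ±1 mod 5` say that `3` is inert and `5` splits in `ℚ(√-d)`.
-/

universe u

open Vale.Agent.P017.H185 Vale.Agent.P017.H735 in
/-- (1) Let `d ≡ 1 mod 3`, `d ≡ ±1 mod 5` be squarefree.  Suppose that `c = 1` and `c = d` are the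
only positive squarefree `c ≡ 1 mod 3`, composed of the prime `5` and of primes ramified in
`ℚ(√-d)`, which are norms from `ℚ_p(√-d)` for every odd prime `p ∣ d`.  Then `X₀(15)(ℚ(√-d))` is
finite.
(2) This is so for `d = p` prime, `p ≡ 1 mod 3`, `p ≡ ±1 mod 5`, `p ≢ 1 mod 8`, and for `d = 2 p`,
`p` prime, `2 p ≡ 1 mod 3`, `2 p ≡ ±1 mod 5`, `p ≡ ±1 mod 8`.
(3) For every squarefree `m` prime to `30` there are infinitely many primes `p` such that
`m p ≡ 31 mod 60` and `X₀(15)(ℚ(√-mp))` is finite. -/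
theorem Vale.Agent.Results.P017.ThreeInertFiveSplit.result :
    (∀ d : ℕ, Squarefree d → d % 3 = 1 → (d % 5 = 1 ∨ d % 5 = 4) →
      (∀ c : ℕ, Squarefree c → c ∣ 10 * d → (d % 4 = 3 → ¬ 2 ∣ c) → c % 3 = 1 →
        (∀ p : ℕ, p.Prime → p ≠ 2 → p ∣ d → (¬ p ∣ c → IsSquare (c : ZMod p)) ∧
          (p ∣ c → IsSquare ((d / p * (c / p) : ℕ) : ZMod p))) →
        c = 1 ∨ c = d) →
      ∀ (K : Type u) [Field K] [NumberField K] [Algebra.IsQuadraticExtension ℚ K] (θ : K),
        θ ^ 2 = -(d : K) → Finite (X015.baseChange K).toAffine.Point) ∧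
    (∀ p d : ℕ, p.Prime → d % 3 = 1 → (d % 5 = 1 ∨ d % 5 = 4) →
      (d = p ∧ p % 8 ≠ 1 ∨ d = 2 * p ∧ (p % 8 = 1 ∨ p % 8 = 7)) →
      ∀ (K : Type u) [Field K] [NumberField K] [Algebra.IsQuadraticExtension ℚ K] (θ : K),
        θ ^ 2 = -(d : K) → Finite (X015.baseChange K).toAffine.Point) ∧
    ∀ m : ℕ, Squarefree m → Nat.Coprime m 30 →
      {p : ℕ | p.Prime ∧ ¬ p ∣ m ∧ (m * p) % 60 = 31 ∧
        ∀ (K : Type u) [Field K] [NumberField K] [Algebra.IsQuadraticExtension ℚ K] (θ : K),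
          θ ^ 2 = -((m * p : ℕ) : K) → Finite (X015.baseChange K).toAffine.Point}.Infinite := by
  refine ⟨?_, ?_, ?_⟩
  · intro d hd h3 h5 hC K _ _ _ θ hθ
    exact finite_of_crit hd h3 h5 hC hθ
  · rintro p d hp h3 h5 (⟨rfl, h8⟩ | ⟨rfl, h8⟩) K _ _ _ θ hθ
    · exact finite_of_crit hp.squarefree h3 h5 (crit_prime hp h3 h5 h8) hθ
    · refine finite_of_crit ?_ h3 h5 (crit_two_mul_prime hp h3 h5 h8) hθ
      rw [Nat.squarefree_mul]
      · exact ⟨Nat.prime_two.squarefree, hp.squarefree⟩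
      · rw [Nat.coprime_primes Nat.prime_two hp]
        rintro rfl
        omega
  · intro m hm h30
    have h60 : Nat.Coprime m 60 := by
      have h2 : Nat.Coprime m 2 := Nat.Coprime.coprime_dvd_right (by norm_num) h30
      have : Nat.Coprime m (30 * 2) := Nat.Coprime.mul_right h30 h2
      exact this
    apply Set.infinite_of_forall_exists_gt
    intro B
    obtain ⟨p, hpB, hp, hpm, hmp, hsq, hC⟩ := exists_ext hm h60 B
    refine ⟨p, ⟨hp, hpm, hmp, ?_⟩, hpB⟩
    intro K _ _ _ θ hθ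
    exact finite_of_crit hsq (by omega) (by omega) hC hθ
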